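import Vale.Agent.P193.Final.Main

/-- The Boone–Higman conjecture: a finitely generated group with decidable word problem embeds in a
finitely presented simple group. -/
theorem Vale.Agent.Results.P193.BooneHigman.result (G : Type) [Group G] (r : ℕ) (gen : Fin r → G)
    (hsurj : Function.Surjective (FreeGroup.lift gen))
    (hdec : ComputablePred fun w : List (Fin r × Bool) =>
      FreeGroup.lift gen (FreeGroup.mk w) = 1) :
    ∃ (T : Type) (_ : Group T), IsSimpleGroup T ∧ Group.IsFinitelyPresented T ∧
      ∃ f : G →* T, Function.Injective f :=
  Vale.Agent.P193.boone_higman G r gen hsurj hdec
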